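import Vale.Agent.P218UM.Basic
import Vale.Agent.P218UG.Frame
import Mathlib.Analysis.SpecialFunctions.Gaussian.FourierTransform
import Mathlib.MeasureTheory.Constructions.HaarToSphere
import Mathlib.MeasureTheory.Measure.Lebesgue.VolumeOfBalls
import Mathlib.Analysis.Complex.ExponentialBounds
import Mathlib.Analysis.Real.Pi.Bounds

/-! The Gaussian densities of planes and of the round cylinder. -/

open MeasureTheory Set Filter Topology Metric
open scoped ENNReal NNReal RealInnerProductSpace ContDiff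

namespace Vale.Agent.P218UT

open Vale.Agent.P218UA Vale.Agent.P218UG

lemma isometry_pt (Q : E3 ≃ₗᵢ[ℝ] E3) (p : E3) : Isometry fun ξ : E2 => pt Q p ξ 0 := by
  refine Isometry.of_dist_eq fun a b => ?_
  rw [dist_eq_norm, dist_eq_norm, pt_sub_pt]
  have h := norm_lin_sq (Q := Q) (a - b, (0 : ℝ) - 0)
  simp only [sub_self, ne_eq, OfNat.ofNat_ne_zero, not_false_eq_true, zero_pow, add_zero] at h ⊢
  exact (pow_left_inj₀ (norm_nonneg _) (norm_nonneg _) two_ne_zero).1 h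

lemma range_pt (Q : E3 ≃ₗᵢ[ℝ] E3) (p : E3) :
    range (fun ξ : E2 => pt Q p ξ 0) = {z | ⟪z, nQ Q⟫ = ⟪p, nQ Q⟫} := by
  ext z
  constructor
  · rintro ⟨ξ, rfl⟩
    have h := inner_pt (Q := Q) (p := p) ξ 0
    rw [inner_sub_left] at h
    simp only [mem_ofPred_eq]
    linarith
  · intro h
    refine ⟨hor Q (z - p), ?_⟩
    have h1 := pt_hor Q p z
    have h2 : ⟪z - p, nQ Q⟫ = 0 := by
      have h' : ⟪z, nQ Q⟫ = ⟪p, nQ Q⟫ := h
      rw [inner_sub_left, h', sub_self]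
    rwa [h2] at h1

/-- the area measure of a plane is the image of the Lebesgue measure -/
lemma plane_eq_map (Q : E3 ≃ₗᵢ[ℝ] E3) (p : E3) :
    (μHE[2] : Measure E3).restrict {z | ⟪z, nQ Q⟫ = ⟪p, nQ Q⟫}
      = (volume : Measure E2).map fun ξ => pt Q p ξ 0 := by
  rw [← range_pt, ← (isometry_pt Q p).map_euclideanHausdorffMeasure,
    EuclideanSpace.euclideanHausdorffMeasure_eq_volume]

/-- integrals of radial functions over planes -/
lemma integral_plane_radial {e : E3} (he : ‖e‖ = 1) (x : E3) (h : ℝ) (F : ℝ → ℝ) :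
    ∫ y, F (‖y - x‖ ^ 2) ∂((μHE[2] : Measure E3).restrict {z | ⟪z, e⟫ = h})
      = ∫ ξ : E2, F (‖ξ‖ ^ 2 + (⟪x, e⟫ - h) ^ 2) := by
  obtain ⟨Q, rfl⟩ := exists_frame he
  set p : E3 := x - (⟪x, nQ Q⟫ - h) • nQ Q with hp
  have hnn : ⟪nQ Q, nQ Q⟫ = 1 := by rw [real_inner_self_eq_norm_sq, he]; norm_num
  have h1 : ⟪p, nQ Q⟫ = h := by rw [hp, inner_sub_left, real_inner_smul_left, hnn]; ring
  rw [← h1, plane_eq_map, (isometry_pt Q p).isClosedEmbedding.measurableEmbedding.integral_map]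
  congr 1
  ext ξ
  have h2 : x = pt Q p 0 (⟪x, nQ Q⟫ - h) := by
    have h0 : lin Q ((0 : E2), (0 : ℝ)) = 0 := map_zero (lin Q)
    rw [pt_add, pt_eq, hp, h0, add_zero, sub_add_cancel]
  have h3 : pt Q p ξ 0 - x = lin Q (ξ - 0, 0 - (⟪x, nQ Q⟫ - h)) := by
    rw [← pt_sub_pt, ← h2]
  rw [h3, norm_lin_sq, h1]
  congr 1
  simp only [sub_zero, zero_sub, even_two, Even.neg_pow]

lemma gd_plane {e : E3} (he : ‖e‖ = 1) (x : E3) {r : ℝ} (h : ℝ) (hr : 0 < r) :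
    gd ((μHE[2] : Measure E3).restrict {z | ⟪z, e⟫ = h}) x r
      = Real.exp (-(⟪x, e⟫ - h) ^ 2 / (4 * r ^ 2)) := by
  rw [gd, integral_plane_radial he x h fun s => Real.exp (-s / (4 * r ^ 2))]
  have h1 : ∀ ξ : E2, Real.exp (-(‖ξ‖ ^ 2 + (⟪x, e⟫ - h) ^ 2) / (4 * r ^ 2))
      = Real.exp (-(⟪x, e⟫ - h) ^ 2 / (4 * r ^ 2)) * Real.exp (-(4 * r ^ 2)⁻¹ * ‖ξ‖ ^ 2) := by
    intro ξ
    rw [← Real.exp_add]
    congr 1
    ring
  simp_rw [h1]
  rw [integral_const_mul, GaussianFourier.integral_rexp_neg_mul_sq_norm (by positivity)]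
  have h2 : ((Module.finrank ℝ E2 : ℝ) / 2 : ℝ) = 1 := by simp
  rw [h2, Real.rpow_one]
  have := Real.pi_pos
  field_simp

lemma integral_cube (a : ℝ) {r : ℝ} (hr : 0 < r) :
    ∫ y in Ioi (0 : ℝ), y * max (a - y ^ 2 / r ^ 2) 0 ^ 3 = r ^ 2 / 8 * max a 0 ^ 4 := by
  have h1 : ∀ y ∈ Ici (0 : ℝ), HasDerivAt (fun y : ℝ => -(r ^ 2 / 8) * max (a - y ^ 2 / r ^ 2) 0 ^ 4)
      (y * max (a - y ^ 2 / r ^ 2) 0 ^ 3) y := by
    intro y _
    have h2 : HasDerivAt (fun y : ℝ => a - y ^ 2 / r ^ 2) (-(2 * y / r ^ 2)) y := by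
      simpa using ((hasDerivAt_pow 2 y).div_const (r ^ 2)).const_sub a
    have h3 := ((P218UM.hasDerivAt_max_pow 2 _).comp y h2).const_mul (-(r ^ 2 / 8))
    refine h3.congr_deriv ?_
    push_cast
    field_simp
    ring
  have h4 : Tendsto (fun y : ℝ => -(r ^ 2 / 8) * max (a - y ^ 2 / r ^ 2) 0 ^ 4) atTop (𝓝 0) := by
    refine tendsto_const_nhds.congr' ?_
    have h5 : Tendsto (fun y : ℝ => y ^ 2 / r ^ 2) atTop atTop :=
      (tendsto_pow_atTop two_ne_zero).atTop_div_const (by positivity)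
    filter_upwards [h5.eventually_ge_atTop a] with y hy
    rw [max_eq_right (by linarith)]
    simp
  rw [integral_Ioi_of_hasDerivAt_of_nonneg' h1 (fun y hy => by
    have : (0 : ℝ) < y := hy
    positivity) h4]
  simp

lemma mk_plane {e : E3} (he : ‖e‖ = 1) (x : E3) {r : ℝ} (h : ℝ) (hr : 0 < r) :
    mk ((μHE[2] : Measure E3).restrict {z | ⟪z, e⟫ = h}) x r
      = max (1 - ((⟪x, e⟫ - h) / r) ^ 2) 0 ^ 4 := by
  have h0 : ∀ y : E3, kk (r⁻¹ • (y - x))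
      = (fun s => 4 / Real.pi * max (1 - s / r ^ 2) 0 ^ 3) (‖y - x‖ ^ 2) := by
    intro y
    simp only [kk, norm_smul, norm_inv, Real.norm_eq_abs, mul_pow, inv_pow, sq_abs]
    congr 3
    ring
  rw [P218UA.mk]
  simp_rw [h0]
  rw [integral_plane_radial he x h fun s => 4 / Real.pi * max (1 - s / r ^ 2) 0 ^ 3,
    integral_fun_norm_addHaar volume
      fun y => 4 / Real.pi * max (1 - (y ^ 2 + (⟪x, e⟫ - h) ^ 2) / r ^ 2) 0 ^ 3]
  have h1 : (volume : Measure E2).real (ball 0 1) = Real.pi := by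
    simp [Measure.real, Real.pi_pos.le]
  have h2 : Module.finrank ℝ E2 = 2 := by simp
  have h3 : ∀ y : ℝ, y ^ (2 - 1) • (4 / Real.pi
      * max (1 - (y ^ 2 + (⟪x, e⟫ - h) ^ 2) / r ^ 2) 0 ^ 3)
      = 4 / Real.pi * (y * max ((1 - ((⟪x, e⟫ - h) / r) ^ 2) - y ^ 2 / r ^ 2) 0 ^ 3) := by
    intro y
    have : 1 - (y ^ 2 + (⟪x, e⟫ - h) ^ 2) / r ^ 2
        = (1 - ((⟪x, e⟫ - h) / r) ^ 2) - y ^ 2 / r ^ 2 := by ring
    rw [this, smul_eq_mul]
    ring
  rw [h1, h2]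
  simp_rw [h3]
  rw [integral_const_mul, integral_cube _ hr]
  have := Real.pi_pos
  simp only [nsmul_eq_mul, Nat.cast_ofNat, smul_eq_mul]
  field_simp
  ring

/-- the parametrisation of the cylinder -/
noncomputable def cpar (Q : E3 ≃ₗᵢ[ℝ] E3) (q : ℝ × ℝ) : E3 :=
  lin Q (!₂[√2 * Real.cos q.1, √2 * Real.sin q.1], q.2)

lemma norm_circ (θ : ℝ) : ‖(!₂[√2 * Real.cos θ, √2 * Real.sin θ] : E2)‖ ^ 2 = 2 := by
  rw [← real_inner_self_eq_norm_sq, inner2]
  have h1 : √2 * √2 = 2 := Real.mul_self_sqrt (by norm_num)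
  have h2 := Real.cos_sq_add_sin_sq θ
  simp only [Fin.isValue, Matrix.cons_val_zero, Matrix.cons_val_one, Matrix.cons_val_fin_one]
  linear_combination (Real.cos θ ^ 2 + Real.sin θ ^ 2) * h1 + 2 * h2

lemma gT_lin (Q : E3 ≃ₗᵢ[ℝ] E3) (z : E2 × ℝ) : gT (nQ Q) (lin Q z) = lin Q (z.1, 0) := by
  rw [gT, real_inner_comm, inner_lin_nQ, nQ, ← map_smul, ← map_sub]
  congr 1
  ext <;> simp

lemma image_cpar (Q : E3 ≃ₗᵢ[ℝ] E3) :
    cpar Q '' (Ioc (-Real.pi) Real.pi ×ˢ univ) = cylS (nQ Q) := by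
  ext x
  constructor
  · rintro ⟨q, -, rfl⟩
    simp only [cylS, mem_ofPred_eq, cpar, gT_lin, norm_lin_sq, norm_circ]
    norm_num
  · intro hx
    have h1 := lin_hor Q x
    set v := hor Q x with hv
    have h2 : ‖v‖ ^ 2 = 2 := by
      have h3 : ‖gT (nQ Q) x‖ ^ 2 = 2 := hx
      rw [← h1, gT_lin, norm_lin_sq] at h3
      simpa using h3
    rw [← real_inner_self_eq_norm_sq, inner2] at h2
    set c : ℂ := ⟨v 0, v 1⟩ with hc
    have h4 : ‖c‖ = √2 := by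
      rw [Complex.norm_eq_sqrt_sq_add_sq, ← h2]
      congr 1
      simp only [hc]
      ring
    have h5 : c ≠ 0 := by
      rw [← norm_pos_iff, h4]
      positivity
    refine ⟨(c.arg, ⟪x, nQ Q⟫), ⟨c.arg_mem_Ioc, mem_univ _⟩, ?_⟩
    rw [cpar, ← h4]
    refine Eq.trans ?_ h1
    congr 2
    ext i
    fin_cases i
    · exact Complex.norm_mul_cos_arg c
    · exact Complex.norm_mul_sin_arg c

lemma injOn_cpar (Q : E3 ≃ₗᵢ[ℝ] E3) : InjOn (cpar Q) (Ioc (-Real.pi) Real.pi ×ˢ univ) := by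
  rintro ⟨a, s⟩ ha ⟨b, t⟩ hb h
  have h1 := congrArg (hor Q) h
  have h2 := congrArg (fun z => ⟪z, nQ Q⟫) h
  simp only [cpar, hor_lin, inner_lin_nQ] at h1 h2
  have h3 := congrArg (fun z : E2 => z 0) h1
  have h4 := congrArg (fun z : E2 => z 1) h1
  have hs : √2 ≠ 0 := by positivity
  simp only [Fin.isValue, Matrix.cons_val_zero, Matrix.cons_val_one, Matrix.cons_val_fin_one,
    mul_right_inj' hs] at h3 h4
  have h5 : ∀ θ ∈ Ioc (-Real.pi) Real.pi,
      Complex.arg (Complex.cos θ + Complex.sin θ * Complex.I) = θ := fun θ hθ =>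
    Complex.arg_cos_add_sin_mul_I hθ
  have h6 : a = b := by
    rw [← h5 a ha.1, ← h5 b hb.1, ← Complex.ofReal_cos, ← Complex.ofReal_sin,
      ← Complex.ofReal_cos, ← Complex.ofReal_sin, h3, h4]
  exact Prod.ext h6 h2

lemma hasFDerivAt_cpar (Q : E3 ≃ₗᵢ[ℝ] E3) (q : ℝ × ℝ) : HasFDerivAt (cpar Q)
    ((ContinuousLinearMap.fst ℝ ℝ ℝ).smulRight
        (lin Q (!₂[-(√2 * Real.sin q.1), √2 * Real.cos q.1], 0))
      + (ContinuousLinearMap.snd ℝ ℝ ℝ).smulRight (nQ Q)) q := by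
  have e : cpar Q = fun q : ℝ × ℝ => (√2 * Real.cos q.1) • lin Q (!₂[1, 0], 0)
      + (√2 * Real.sin q.1) • lin Q (!₂[0, 1], 0) + q.2 • nQ Q := by
    ext1 q
    rw [cpar, nQ, ← map_smul, ← map_smul, ← map_smul, ← map_add, ← map_add]
    congr 1
    ext i
    · fin_cases i <;> simp
    · simp
  rw [e]
  have h1 : HasFDerivAt (fun q : ℝ × ℝ => √2 * Real.cos q.1)
      ((√2 * -Real.sin q.1) • ContinuousLinearMap.fst ℝ ℝ ℝ) q :=
    ((Real.hasDerivAt_cos q.1).const_mul √2).comp_hasFDerivAt q hasFDerivAt_fst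
  have h2 : HasFDerivAt (fun q : ℝ × ℝ => √2 * Real.sin q.1)
      ((√2 * Real.cos q.1) • ContinuousLinearMap.fst ℝ ℝ ℝ) q :=
    ((Real.hasDerivAt_sin q.1).const_mul √2).comp_hasFDerivAt q hasFDerivAt_fst
  have h3 := ((h1.smul_const (lin Q (!₂[1, 0], 0))).add
    (h2.smul_const (lin Q (!₂[0, 1], 0)))).add
      ((hasFDerivAt_snd (𝕜 := ℝ) (p := q)).smul_const (nQ Q))
  refine h3.congr_fderiv ?_
  have e2 : lin Q (!₂[-(√2 * Real.sin q.1), √2 * Real.cos q.1], 0)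
      = (√2 * -Real.sin q.1) • lin Q (!₂[1, 0], 0)
        + (√2 * Real.cos q.1) • lin Q (!₂[0, 1], 0) := by
    rw [← map_smul, ← map_smul, ← map_add]
    congr 1
    ext i
    · fin_cases i <;> simp
    · simp
  rw [e2]
  refine ContinuousLinearMap.ext fun v => ?_
  simp only [add_apply, ContinuousLinearMap.smulRight_apply,
    ContinuousLinearMap.coe_fst', ContinuousLinearMap.coe_snd', smul_apply,
    smul_eq_mul, smul_add, smul_smul]
  rw [mul_comm v.1, mul_comm v.1]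

lemma contDiff_cpar (Q : E3 ≃ₗᵢ[ℝ] E3) : ContDiff ℝ 1 (cpar Q) := by
  unfold cpar
  refine (lin Q).contDiff.comp (ContDiff.prodMk ?_ contDiff_snd)
  refine contDiff_euclidean.2 fun i => ?_
  fin_cases i <;> simp <;> fun_prop

lemma jac_cpar (Q : E3 ≃ₗᵢ[ℝ] E3) (q : ℝ × ℝ) :
    P218GA.par (fderiv ℝ (cpar Q) q (1, 0)) (fderiv ℝ (cpar Q) q (0, 1)) = √2 := by
  rw [(hasFDerivAt_cpar Q q).fderiv, P218GA.par]
  simp only [add_apply, ContinuousLinearMap.smulRight_apply,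
    ContinuousLinearMap.coe_fst', ContinuousLinearMap.coe_snd', one_smul, zero_smul, add_zero,
    zero_add, inner_lin_nQ, norm_nQ, norm_lin_sq]
  congr 1
  have h := norm_circ (q.1 + Real.pi / 2)
  rw [Real.cos_add_pi_div_two, Real.sin_add_pi_div_two, mul_neg] at h
  rw [h]
  norm_num

lemma inj_cpar (Q : E3 ≃ₗᵢ[ℝ] E3) (q : ℝ × ℝ) : Function.Injective (fderiv ℝ (cpar Q) q) := by
  rw [(hasFDerivAt_cpar Q q).fderiv]
  refine (injective_iff_map_eq_zero _).2 fun v hv => ?_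
  simp only [add_apply, ContinuousLinearMap.smulRight_apply,
    ContinuousLinearMap.coe_fst', ContinuousLinearMap.coe_snd'] at hv
  rw [nQ, ← map_smul, ← map_smul, ← map_add] at hv
  have h1 := norm_lin_sq (Q := Q) (v.1 • ((!₂[-(√2 * Real.sin q.1), √2 * Real.cos q.1] : E2),
    (0 : ℝ)) + v.2 • ((0 : E2), (1 : ℝ)))
  have h := norm_circ (q.1 + Real.pi / 2)
  rw [Real.cos_add_pi_div_two, Real.sin_add_pi_div_two, mul_neg] at h
  rw [hv] at h1
  simp only [norm_zero, ne_eq, OfNat.ofNat_ne_zero, not_false_eq_true, zero_pow, Prod.smul_mk,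
    smul_eq_mul, mul_zero, smul_zero, mul_one, Prod.mk_add_mk, add_zero, zero_add, norm_smul,
    mul_pow, Real.norm_eq_abs, sq_abs, h] at h1
  have h2 : v.1 ^ 2 = 0 := by nlinarith [sq_nonneg v.1, sq_nonneg v.2]
  have h3 : v.2 ^ 2 = 0 := by nlinarith [sq_nonneg v.1, sq_nonneg v.2]
  exact Prod.ext (pow_eq_zero_iff two_ne_zero |>.1 h2) (pow_eq_zero_iff two_ne_zero |>.1 h3)

lemma gd_cyl {e : E3} (he : ‖e‖ = 1) : gd ((μHE[2] : Measure E3).restrict (cylS e)) 0 1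
    = √2 * Real.exp (-1 / 2) * √Real.pi := by
  obtain ⟨Q, rfl⟩ := exists_frame he
  have h1 := (P218GA.isJac_prod (V := E3)).integral_image (f := cpar Q) isOpen_univ
    (contDiff_cpar Q).contDiffOn (fun q _ => inj_cpar Q q)
    (measurableSet_Ioc.prod MeasurableSet.univ) (subset_univ _) (injOn_cpar Q)
    fun y => Real.exp (-‖y - 0‖ ^ 2 / (4 * 1 ^ 2))
  have h2 : ((2 : ℝ)) = ((2 : ℕ) : ℝ) := by norm_num
  have h3 : (μH[(2 : ℝ)] : Measure E3) = P218GA.cH 2 • μHE[2] := by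
    rw [h2]
    exact P218GA.hausdorff_eq_smul 2
  rw [image_cpar, h3, Measure.restrict_smul, integral_smul_nnreal_measure] at h1
  have h4 : ∀ q : ℝ × ℝ, P218GA.jac2 (fderiv ℝ (cpar Q) q)
      • Real.exp (-‖cpar Q q - 0‖ ^ 2 / (4 * 1 ^ 2)) = (P218GA.cH 2 : ℝ)
        * ((√2 * Real.exp (-1 / 2)) * Real.exp (-(1 / 4) * q.2 ^ 2)) := by
    intro q
    rw [P218GA.jac2, jac_cpar, sub_zero, cpar, norm_lin_sq, norm_circ, smul_eq_mul, mul_assoc,
      mul_assoc, ← Real.exp_add]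
    congr 3
    ring
  simp_rw [h4] at h1
  rw [integral_const_mul, NNReal.smul_def, smul_eq_mul,
    mul_right_inj' (P218GA.cH_pos' 2).ne', Measure.volume_eq_prod, ← Measure.prod_restrict,
    integral_prod_mul (fun _ : ℝ => √2 * Real.exp (-1 / 2))
      fun s : ℝ => Real.exp (-(1 / 4) * s ^ 2), Measure.restrict_univ, integral_gaussian] at h1
  rw [gd, h1]
  have hp := Real.pi_pos
  have h5 : √(Real.pi / (1 / 4)) = 2 * √Real.pi := by
    rw [show Real.pi / (1 / 4) = 2 ^ 2 * Real.pi by ring, Real.sqrt_mul (by norm_num),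
      Real.sqrt_sq (by norm_num)]
  rw [h5, integral_const, smul_eq_mul, Measure.real, Measure.restrict_apply_univ, Real.volume_Ioc,
    ENNReal.toReal_ofReal (by linarith)]
  field_simp
  ring

/-- **CYLD** -/
theorem cylDens : CylDensStmt := by
  intro e he
  have h1 : (√2 * Real.exp (-1 / 2) * √Real.pi) ^ 2 * Real.exp 1 = 2 * Real.pi := by
    rw [mul_pow, mul_pow, Real.sq_sqrt (by norm_num), Real.sq_sqrt Real.pi_pos.le,
      ← Real.exp_nat_mul, mul_right_comm, mul_assoc 2, ← Real.exp_add]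
    norm_num
  have h2 := Real.exp_one_gt_d9
  have h3 := Real.exp_one_lt_d9
  have h4 := Real.pi_gt_three
  have h5 := Real.pi_lt_four
  have h0 : 0 < √2 * Real.exp (-1 / 2) * √Real.pi := by
    have := Real.pi_pos
    positivity
  rw [gd_cyl he]
  set c := √2 * Real.exp (-1 / 2) * √Real.pi
  refine ⟨?_, ?_, fun x r h hr => ⟨gd_plane he x h hr, mk_plane he x h hr⟩⟩
  · by_contra hc
    have : (9 / 5) ^ 2 ≤ c ^ 2 := pow_le_pow_left₀ (by norm_num) (not_lt.1 hc) 2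
    nlinarith
  · by_contra hc
    have : c ^ 2 ≤ 1 ^ 2 := pow_le_pow_left₀ h0.le (not_lt.1 hc) 2
    nlinarith

end Vale.Agent.P218UT
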